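import Vale.Agent.P235.XC.H237.Mono
import Vale.Agent.P235.H638.RGrid
import Vale.Agent.P235.H56.CovR

/-!
P235, line XC (helper782): the vertex `p` of `TX r` is a good root: every connected graph with a large
`TX` minor has the rooted minor `(TX r, p)` at every vertex.
-/

set_option autoImplicit false

namespace Vale.Agent.P235.XC.H782

open SimpleGraph hiding Free
open Vale.Agent.P235 Vale.Agent.P235.H134 Vale.Agent.P235.XC Vale.Agent.P235.XC.H237
open Vale.Agent.P235.H56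

theorem conn_of {V : Type} {G : SimpleGraph V} {S : Set V} {c : V} (hc : c ∈ S) (f : V → ℕ)
    (h : ∀ x ∈ S, x ≠ c → ∃ y ∈ S, G.Adj x y ∧ f y < f x) : (G.induce S).Connected := by
  have key : ∀ n : ℕ, ∀ x (hx : x ∈ S), f x = n → (G.induce S).Reachable ⟨x, hx⟩ ⟨c, hc⟩ := by
    intro n
    induction n using Nat.strong_induction_on with
    | _ n ih =>
      intro x hx hn
      by_cases hxc : x = c
      · subst hxc
        exact Reachable.refl _
      · obtain ⟨y, hy, hxy, hlt⟩ := h x hx hxc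
        have hadj : (G.induce S).Adj ⟨x, hx⟩ ⟨y, hy⟩ := hxy
        exact hadj.reachable.trans (ih (f y) (hn ▸ hlt) y hy rfl)
  have : Nonempty S := ⟨⟨c, hc⟩⟩
  exact ⟨fun u v => (key _ u.1 u.2 rfl).trans (key _ v.1 v.2 rfl).symm⟩

/-- the branch sets: the rows outside `[s, s + r)` go to `p`, the columns from `r` on to `q` -/
def nu (r N s : ℕ) : Fin 2 ⊕ (Fin r × Fin r) → Set (Fin 2 ⊕ (Fin N × Fin N))
  | Sum.inl i => {v | v = Sum.inl i ∨ ∃ x : Fin N × Fin N, v = Sum.inr x ∧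
      ((i = 0 ∧ (x.1.val < s ∨ s + r ≤ x.1.val)) ∨
        (i = 1 ∧ s ≤ x.1.val ∧ x.1.val < s + r ∧ r ≤ x.2.val))}
  | Sum.inr a => {v | ∃ x : Fin N × Fin N, v = Sum.inr x ∧ x.1.val = s + a.1.val ∧
      x.2.val = a.2.val}

/-- the rank -/
def rk (N s : ℕ) (i : Fin 2) : Fin 2 ⊕ (Fin N × Fin N) → ℕ
  | Sum.inl _ => 0
  | Sum.inr x => 1 + (if i = 0 then (if x.1.val < s then x.1.val else N - 1 - x.1.val)
      else N - 1 - x.2.val)

theorem nu_conn {r N s : ℕ} (hs : 1 ≤ s) (hsN : s + r < N) (hrN : r < N)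
    (a : Fin 2 ⊕ (Fin r × Fin r)) : ((TX N).induce (nu r N s a)).Connected := by
  rcases a with i | a
  · refine conn_of (c := Sum.inl i) (Or.inl rfl) (rk N s i) ?_
    rintro v (rfl | ⟨x, rfl, (⟨rfl, h | h⟩ | ⟨rfl, h1, h2, h3⟩)⟩) hne
    · exact absurd rfl hne
    · have hx1 := x.1.2
      by_cases h0 : x.1.val = 0
      · refine ⟨Sum.inl 0, Or.inl rfl, (tx_0 (Or.inl h0)).symm, ?_⟩
        simp only [rk, if_true]
        omega
      · refine ⟨Sum.inr (⟨x.1.val - 1, by omega⟩, x.2), Or.inr ⟨_, rfl, Or.inl ⟨rfl, Or.inl ?_⟩⟩,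
          tx_g ((grid_adj _ _).2 (Or.inl ⟨rfl, Or.inr ?_⟩)), ?_⟩
        · simp only
          omega
        · simp only
          omega
        · simp only [rk, if_true]
          split_ifs <;> omega
    · have hx1 := x.1.2
      by_cases h0 : x.1.val + 1 = N
      · refine ⟨Sum.inl 0, Or.inl rfl, (tx_0 (Or.inr h0)).symm, ?_⟩
        simp only [rk, if_true]
        omega
      · refine ⟨Sum.inr (⟨x.1.val + 1, by omega⟩, x.2), Or.inr ⟨_, rfl, Or.inl ⟨rfl, Or.inr ?_⟩⟩,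
          tx_g ((grid_adj _ _).2 (Or.inl ⟨rfl, Or.inl ?_⟩)), ?_⟩
        · simp only
          omega
        · rfl
        · simp only [rk, if_true]
          split_ifs <;> omega
    · have hx2 := x.2.2
      by_cases h0 : x.2.val + 1 = N
      · refine ⟨Sum.inl 1, Or.inl rfl, (tx_1 (Or.inr h0)).symm, ?_⟩
        simp only [rk, one_ne_zero, if_false]
        omega
      · refine ⟨Sum.inr (x.1, ⟨x.2.val + 1, by omega⟩), Or.inr ⟨_, rfl, Or.inr ⟨rfl, h1, h2, ?_⟩⟩,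
          tx_g ((grid_adj _ _).2 (Or.inr ⟨rfl, Or.inl ?_⟩)), ?_⟩
        · simp only
          omega
        · rfl
        · simp only [rk, one_ne_zero, if_false]
          omega
  · have ha1 := a.1.2
    have ha2 := a.2.2
    refine conn_of (c := Sum.inr (⟨s + a.1.val, by omega⟩, ⟨a.2.val, by omega⟩))
      ⟨_, rfl, rfl, rfl⟩ (fun _ => 0) ?_
    rintro v ⟨x, rfl, h1, h2⟩ hne
    exact absurd (congrArg Sum.inr (Prod.ext (Fin.ext h1) (Fin.ext h2))) hne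

theorem nu_disj {r N s : ℕ} (a b : Fin 2 ⊕ (Fin r × Fin r)) (hab : a ≠ b) :
    Disjoint (nu r N s a) (nu r N s b) := by
  rw [Set.disjoint_left]
  intro v hva hvb
  rcases a with i | a <;> rcases b with j | b
  · rcases hva with rfl | ⟨x, rfl, hx⟩
    · rcases hvb with h | ⟨y, h, -⟩
      · exact hab (congrArg Sum.inl (Sum.inl.inj h))
      · exact Sum.inl_ne_inr h
    · rcases hvb with h | ⟨y, h, hy⟩
      · exact Sum.inr_ne_inl h
      · obtain rfl : x = y := Sum.inr.inj h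
        rcases hx with ⟨rfl, h1⟩ | ⟨rfl, h1, h2, h3⟩ <;>
          rcases hy with ⟨rfl, h4⟩ | ⟨rfl, h4, h5, h6⟩
        · exact hab rfl
        · omega
        · omega
        · exact hab rfl
  · obtain ⟨y, rfl, h1, h2⟩ := hvb
    have hb1 := b.1.2
    have hb2 := b.2.2
    rcases hva with h | ⟨x, h, hx⟩
    · exact Sum.inr_ne_inl h
    · obtain rfl : y = x := Sum.inr.inj h
      rcases hx with ⟨-, h3⟩ | ⟨-, h3, h4, h5⟩ <;> omega
  · obtain ⟨y, rfl, h1, h2⟩ := hva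
    have hb1 := a.1.2
    have hb2 := a.2.2
    rcases hvb with h | ⟨x, h, hx⟩
    · exact Sum.inr_ne_inl h
    · obtain rfl : y = x := Sum.inr.inj h
      rcases hx with ⟨-, h3⟩ | ⟨-, h3, h4, h5⟩ <;> omega
  · obtain ⟨x, rfl, h1, h2⟩ := hva
    obtain ⟨y, h, h3, h4⟩ := hvb
    obtain rfl : x = y := Sum.inr.inj h
    exact hab (congrArg Sum.inr (Prod.ext (Fin.ext (by omega)) (Fin.ext (by omega))))

theorem nu_edge {r N s : ℕ} (hs : 1 ≤ s) (hsN : s + r < N) (hrN : r < N)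
    {a b : Fin 2 ⊕ (Fin r × Fin r)}
    (h : (∃ x : Fin r × Fin r, (x.1.val = 0 ∨ x.1.val + 1 = r) ∧ a = Sum.inl 0 ∧ b = Sum.inr x) ∨
    (∃ x : Fin r × Fin r, (x.2.val = 0 ∨ x.2.val + 1 = r) ∧ a = Sum.inl 1 ∧ b = Sum.inr x) ∨
    ∃ x y : Fin r × Fin r, (grid r).Adj x y ∧ a = Sum.inr x ∧ b = Sum.inr y) :
    ∃ x ∈ nu r N s a, ∃ y ∈ nu r N s b, (TX N).Adj x y := by
  rcases h with ⟨x, hx, rfl, rfl⟩ | ⟨x, hx, rfl, rfl⟩ | ⟨x, y, hxy, rfl, rfl⟩
  · have h1 := x.1.2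
    have h2 := x.2.2
    rcases hx with hx | hx
    · refine ⟨Sum.inr (⟨s - 1, by omega⟩, ⟨x.2.val, by omega⟩),
        Or.inr ⟨_, rfl, Or.inl ⟨rfl, Or.inl ?_⟩⟩,
        Sum.inr (⟨s + x.1.val, by omega⟩, ⟨x.2.val, by omega⟩), ⟨_, rfl, rfl, rfl⟩,
        tx_g ((grid_adj _ _).2 (Or.inl ⟨rfl, Or.inl ?_⟩))⟩
      · simp only
        omega
      · simp only
        omega
    · refine ⟨Sum.inr (⟨s + r, by omega⟩, ⟨x.2.val, by omega⟩),
        Or.inr ⟨_, rfl, Or.inl ⟨rfl, Or.inr ?_⟩⟩,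
        Sum.inr (⟨s + x.1.val, by omega⟩, ⟨x.2.val, by omega⟩), ⟨_, rfl, rfl, rfl⟩,
        tx_g ((grid_adj _ _).2 (Or.inl ⟨rfl, Or.inr ?_⟩))⟩
      · exact le_rfl
      · simp only
        omega
  · have h1 := x.1.2
    have h2 := x.2.2
    rcases hx with hx | hx
    · refine ⟨Sum.inl 1, Or.inl rfl,
        Sum.inr (⟨s + x.1.val, by omega⟩, ⟨x.2.val, by omega⟩), ⟨_, rfl, rfl, rfl⟩,
        tx_1 (Or.inl hx)⟩
    · refine ⟨Sum.inr (⟨s + x.1.val, by omega⟩, ⟨r, hrN⟩),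
        Or.inr ⟨_, rfl, Or.inr ⟨rfl, ?_, ?_, ?_⟩⟩,
        Sum.inr (⟨s + x.1.val, by omega⟩, ⟨x.2.val, by omega⟩), ⟨_, rfl, rfl, rfl⟩,
        tx_g ((grid_adj _ _).2 (Or.inr ⟨rfl, Or.inr ?_⟩))⟩
      · simp only
        omega
      · simp only
        omega
      · exact le_rfl
      · simp only
        omega
  · have h1 := x.1.2
    have h2 := x.2.2
    have h3 := y.1.2
    have h4 := y.2.2
    refine ⟨Sum.inr (⟨s + x.1.val, by omega⟩, ⟨x.2.val, by omega⟩), ⟨_, rfl, rfl, rfl⟩,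
      Sum.inr (⟨s + y.1.val, by omega⟩, ⟨y.2.val, by omega⟩), ⟨_, rfl, rfl, rfl⟩,
      tx_g ((grid_adj _ _).2 ?_)⟩
    rcases (grid_adj _ _).1 hxy with ⟨e, f⟩ | ⟨e, f⟩
    · have e' : x.2.val = y.2.val := congrArg Fin.val e
      refine Or.inl ⟨Fin.ext e', ?_⟩
      simp only
      omega
    · have e' : x.1.val = y.1.val := congrArg Fin.val e
      refine Or.inr ⟨Fin.ext ?_, f⟩
      simp only
      omega

theorem nu_edge' {r N s : ℕ} (hs : 1 ≤ s) (hsN : s + r < N) (hrN : r < N)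
    (a b : Fin 2 ⊕ (Fin r × Fin r)) (hab : (TX r).Adj a b) :
    ∃ x ∈ nu r N s a, ∃ y ∈ nu r N s b, (TX N).Adj x y := by
  rcases hab with ⟨-, h | h⟩
  · exact nu_edge hs hsN hrN h
  · obtain ⟨x, hx, y, hy, hxy⟩ := nu_edge hs hsN hrN h
    exact ⟨y, hy, x, hx, hxy.symm⟩

/-- the transposition -/
def sw (r : ℕ) : Fin 2 ⊕ (Fin r × Fin r) → Fin 2 ⊕ (Fin r × Fin r)
  | Sum.inl i => Sum.inl (if i = 0 then 1 else 0)
  | Sum.inr x => Sum.inr (x.2, x.1)

theorem sw_sw {r : ℕ} (u : Fin 2 ⊕ (Fin r × Fin r)) : sw r (sw r u) = u := by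
  rcases u with i | x
  · fin_cases i <;> rfl
  · rfl

theorem sw_edge {r : ℕ} {a b : Fin 2 ⊕ (Fin r × Fin r)}
    (h : (∃ x : Fin r × Fin r, (x.1.val = 0 ∨ x.1.val + 1 = r) ∧ a = Sum.inl 0 ∧ b = Sum.inr x) ∨
    (∃ x : Fin r × Fin r, (x.2.val = 0 ∨ x.2.val + 1 = r) ∧ a = Sum.inl 1 ∧ b = Sum.inr x) ∨
    ∃ x y : Fin r × Fin r, (grid r).Adj x y ∧ a = Sum.inr x ∧ b = Sum.inr y) :
    (TX r).Adj (sw r a) (sw r b) := by
  rcases h with ⟨x, hx, rfl, rfl⟩ | ⟨x, hx, rfl, rfl⟩ | ⟨x, y, hxy, rfl, rfl⟩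
  · exact tx_1 (x := (x.2, x.1)) hx
  · exact tx_0 (x := (x.2, x.1)) hx
  · refine tx_g ((grid_adj _ _).2 ?_)
    rcases (grid_adj _ _).1 hxy with ⟨e, f⟩ | ⟨e, f⟩
    · exact Or.inr ⟨e, f⟩
    · exact Or.inl ⟨e, f⟩

theorem sw_adj {r : ℕ} {a b : Fin 2 ⊕ (Fin r × Fin r)} (h : (TX r).Adj a b) :
    (TX r).Adj (sw r a) (sw r b) := by
  rcases h with ⟨-, h | h⟩
  · exact sw_edge h
  · exact (sw_edge h).symm

/-- `(TX r, p)` is a rooted minor of `TX N` at every vertex -/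
theorem tx_root {r N : ℕ} (hN : 2 * r + 2 ≤ N) (t : Fin 2 ⊕ (Fin N × Fin N)) :
    H12.RMinor (TX r) (Sum.inl 0) (TX N) t := by
  have main : ∀ s : ℕ, 1 ≤ s → s + r < N → t ∈ nu r N s (Sum.inl 0) →
      H12.RMinor (TX r) (Sum.inl 0) (TX N) t := fun s hs hsN ht =>
    ⟨nu r N s, nu_conn hs hsN (by omega), nu_disj, nu_edge' hs hsN (by omega), ht⟩
  rcases t with i | x
  · by_cases hi : i = 0
    · subst hi
      exact main 1 le_rfl (by omega) (Or.inl rfl)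
    · obtain rfl : i = 1 := by
        apply Fin.ext
        have := i.2
        have h0 : i.val ≠ 0 := fun e => hi (Fin.ext e)
        show i.val = 1
        omega
      refine ⟨fun u => nu r N 1 (sw r u), fun u => nu_conn le_rfl (by omega) (by omega) _,
        fun u v huv => nu_disj _ _ fun e => huv ?_, fun u v huv =>
        nu_edge' le_rfl (by omega) (by omega) _ _ (sw_adj huv), Or.inl rfl⟩
      rw [← sw_sw u, ← sw_sw v, e]
  · by_cases hx : x.1.val < r + 1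
    · exact main (r + 1) (by omega) (by omega) (Or.inr ⟨x, rfl, Or.inl ⟨rfl, Or.inl hx⟩⟩)
    · exact main 1 le_rfl (by omega) (Or.inr ⟨x, rfl, Or.inl ⟨rfl, Or.inr (by omega)⟩⟩)

/-- every connected graph with a large `TX` minor has the rooted minor `(TX r, p)` everywhere -/
theorem rminor_of {r N : ℕ} (hN : 2 * r + 2 ≤ N) {V : Type} {G : SimpleGraph V} (hG : G.Connected)
    (h : IsMinor (TX N) G) (v : V) : H12.RMinor (TX r) (Sum.inl 0) G v := by
  obtain ⟨k, hk⟩ := exists_root hG h v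
  exact H638.rminor_trans (tx_root hN k) hk

/-- **the vertex `p` of `TX r` is a good root** -/
theorem rTX' (hX : ∀ N : ℕ, 2 ≤ N → ∃ K : ℝ, ∀ (V : Type) [Finite V] (G : SimpleGraph V),
    G.Connected → ¬ IsMinor (TX N) G → DistortionLE G K) (r : ℕ) :
    H12.RFree (TX r) (Sum.inl 0) := by
  obtain ⟨K, hK⟩ := hX (2 * r + 2) (by omega)
  refine ⟨K, fun V _ G hG hbad v => ?_⟩
  by_contra hno
  exact hbad (hK V G hG fun h => hno (rminor_of le_rfl hG h v))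

theorem rTX (hX : ∀ N : ℕ, 2 ≤ N → ∃ K : ℝ, ∀ (V : Type) [Finite V] (G : SimpleGraph V),
    G.Connected → ¬ IsMinor (TX N) G → DistortionLE G K) (r : ℕ) :
    H750.RFree (TX r) (Sum.inl 0) := H638.rfree_of (rTX' hX r)

end Vale.Agent.P235.XC.H782
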