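import Vale.Agent.P235.XC.H782.Root
import Vale.Agent.P235.K5.H56.OneF

/-!
P235, line XC (helper782): excluded minors glued at vertices from graphs drawn with one crossing.
-/

set_option autoImplicit false

namespace Vale.Agent.P235.XC.H782

open SimpleGraph hiding Free
open Vale.Agent.P235 Vale.Agent.P235.H134 Vale.Agent.P235.H141 Vale.Agent.P235.H606
open Vale.Agent.P235.H56 Vale.Agent.P235.XC Vale.Agent.P235.XC.H237
open Vale.Agent.P235.H750 (RMinor RFree)
open Vale.Agent.P235.K5.H56 (K5FreeStmt rfree_block oneF_of)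

/-- the connected graphs built from a planar graph or a minor of some `TX r` by gluing, again and
again, at any vertex, a connected rooted graph which is planar, or `K₅`, or `K_{3,3}`, or a rooted
minor of some `(TX r, p)`, `p` the vertex joined to the first and the last row -/
inductive XTree : ∀ {W : Type}, SimpleGraph W → Prop
  | core {W : Type} {H : SimpleGraph W} : Finite W → H.Connected →
      (Planar H ∨ ∃ r, IsMinor H (TX r)) → XTree H
  | glue {W : Type} {H : SimpleGraph W} {S T : Set W} {v : W} (hT : v ∈ T) : S ∪ T = Set.univ →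
      S ∩ T = {v} → (∀ a b, a ∉ T → b ∉ S → ¬ H.Adj a b) → XTree (H.induce S) → Finite T →
      (H.induce T).Connected →
      (Planar (H.induce T) ∨ Nonempty (H.induce T ≃g (⊤ : SimpleGraph (Fin 5))) ∨
        Nonempty (H.induce T ≃g completeBipartiteGraph (Fin 3) (Fin 3)) ∨
        ∃ r, RMinor (H.induce T) ⟨v, hT⟩ (TX r) (Sum.inl 0)) → XTree H

/-- a minor of such a graph -/
def XPart {W : Type} (H : SimpleGraph W) : Prop :=
  ∃ (X : Type) (T : SimpleGraph X), XTree T ∧ IsMinor H T

/-- the graphs without the minor `TX r` have bounded `c₁` -/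
def XFreeStmt : Prop :=
  ∀ r : ℕ, 2 ≤ r → ∃ K : ℝ, ∀ (V : Type) [Finite V] (G : SimpleGraph V), G.Connected →
    ¬ IsMinor (TX r) G → DistortionLE G K

theorem grid_tx (r : ℕ) : IsMinor (grid r) (TX r) := by
  refine ⟨fun a => {Sum.inr a}, fun a => ?_, fun a b hab => ?_, fun a b hab =>
    ⟨_, rfl, _, rfl, tx_g hab⟩⟩
  · exact conn_of (c := Sum.inr a) rfl (fun _ => 0) fun x hx hne => absurd hx hne
  · exact Set.disjoint_singleton.2 fun e => hab (Sum.inr.inj e)

theorem core_tx {W : Type} [Finite W] {H : SimpleGraph W}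
    (h : Planar H ∨ ∃ r, IsMinor H (TX r)) : ∃ r, 2 ≤ r ∧ IsMinor H (TX r) := by
  rcases h with h | ⟨r, hr⟩
  · obtain ⟨r, -, hr⟩ := H205.planar W H h
    exact ⟨max r 2, le_max_right _ _, minor_trans (minor_trans hr (grid_tx r))
      (mono (le_max_left _ _))⟩
  · exact ⟨max r 2, le_max_right _ _, minor_trans hr (mono (le_max_left _ _))⟩

theorem xtree_free (hK : K5FreeStmt) (hX : XFreeStmt) {W : Type} {H : SimpleGraph W}
    (hH : XTree H) : Finite W ∧ H.Connected ∧ ∃ C : ℝ, Free H C := by
  induction hH with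
  | @core W H hW hc hcore =>
    refine ⟨hW, hc, ?_⟩
    obtain ⟨r, hr2, hr⟩ := core_tx hcore
    obtain ⟨K, hK'⟩ := hX r hr2
    exact ⟨K, fun V _ G hG hno => hK' V G hG fun h => hno (minor_trans hr h)⟩
  | @glue W H S T v hvT hST hST' hadj _ hTf hTc hT ihS =>
    obtain ⟨hSf, hSc, hSF⟩ := ihS
    have hvS : v ∈ S := (hST'.symm ▸ Set.mem_singleton v : v ∈ S ∩ T).1
    have hW : Finite W := by
      rw [← Set.finite_univ_iff, ← hST]
      exact (Set.toFinite S).union (Set.toFinite T)
    refine ⟨hW, H427.conn_glue hvS hvT hST hSc hTc, ?_⟩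
    refine oneF_of H427.nestStmt H12.allStar H406.mono H427.OneB2.oneB2 hvS hvT hST hST' hadj hSc
      ?_ hSF
    rcases hT with h | h | h | ⟨r, hr⟩
    · exact rfree_block hK _ (Or.inl h)
    · exact rfree_block hK _ (Or.inr (Or.inl h))
    · exact rfree_block hK _ (Or.inr (Or.inr h))
    · exact H427.rfree_mono hr (rTX hX r)

/-- **the excluded minors `XPart` have bounded `c₁`** -/
theorem xpart_free (hK : K5FreeStmt) (hX : XFreeStmt) {W : Type} {H : SimpleGraph W}
    (hH : XPart H) : ∃ C : ℝ, Free H C := by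
  obtain ⟨X, T, hT, hm⟩ := hH
  obtain ⟨-, -, C, hC⟩ := xtree_free hK hX hT
  exact ⟨C, fun V _ G hG hno => hC V G hG fun h => hno (minor_trans hm h)⟩

/-- excluded minors, componentwise, with deleted vertices, and minor-closed families -/
theorem all (hK5 : K5FreeStmt) (hX : XFreeStmt) : ∃ C : ℝ, 1 ≤ C ∧
    (∀ (W : Type) [Finite W] (H : SimpleGraph W),
      (∀ c : H.ConnectedComponent, XPart (H.induce c.supp)) →
      ∃ K : ℝ, (∀ (V : Type) [Finite V] (G : SimpleGraph V), G.Connected → ¬ IsMinor H G →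
        DistortionLE G K) ∧
      ∀ (t : ℕ) (V : Type) [Finite V] (G : SimpleGraph V), G.Connected →
        (∃ S : Set V, S.ncard ≤ t ∧ ∀ u ∉ S, ¬ IsMinor H (G.induce (compSet G S u))) →
          DistortionLE G (C * (K + Real.log (t + 2)))) ∧
    (∀ F : (V : Type) → SimpleGraph V → Prop, MinorClosed F →
      ((∃ (W : Type) (_ : Finite W) (H : SimpleGraph W), H.Connected ∧ XPart H ∧ ¬ F W H) ∨
      (∃ (W : Type) (_ : Finite W) (H : SimpleGraph W),
        (∀ c : H.ConnectedComponent, XPart (H.induce c.supp)) ∧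
        ∀ (V : Type) [Finite V] (G : SimpleGraph V), F V G → ¬ IsMinor H G)) →
      ∃ K : ℝ, ∀ (V : Type) [Finite V] (G : SimpleGraph V), G.Connected → F V G →
        DistortionLE G K) := by
  obtain ⟨A, hA1, -, -, -, -, -, h6, h7⟩ := main_of H830.sPrime H638.monoQ
    (P := fun _ H => XPart H) fun _ _ _ h => xpart_free hK5 hX h
  exact ⟨A, hA1, h6, h7⟩

end Vale.Agent.P235.XC.H782
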